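import Vale.Agent.P281.H364.TD.Over
import Vale.Agent.P281.H383.Gen.Ext

/-!
# P281, project T-Delta (helper364): block D8': fibres contained in a prime divisor
-/

open Set Filter Metric Vale.Agent.P281 Vale.Agent.P281.J
open Vale.Agent.P281.H64 (Cm IsProperFibration)
open Vale.Agent.P281.H64.Gen (IsSmallSet)
open Vale.Agent.P281.H969.K (LocAnalytic)
open scoped Topology ContDiff Manifold

noncomputable section

namespace Vale.Agent.P281.H364.TD

section prime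
variable {E : Type} [NormedAddCommGroup E] [NormedSpace ℂ E] {X : Type} [TopologicalSpace X]
  [ChartedSpace E X]

/-- A closed set with reduced local equations contains no neighbourhood of a point. -/
theorem localEq_not_nhds {D : Set X} {g : X → ℂ} {x : X} (hD : IsLocalEq E D g x) :
    ¬ ∀ᶠ z in 𝓝 x, z ∈ D := by
  intro h
  obtain ⟨V, hV, hxV, hg, hgD, hcl⟩ := hD
  have h0 : ∀ᶠ z in 𝓝 x, g z = 0 := by
    filter_upwards [h, hV.mem_nhds hxV] with z hz hzV using (hgD z hzV).1 hz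
  have h1 : ∀ᶠ z in 𝓝 x, dif E g z = 0 := by
    filter_upwards [h0.eventually_nhds] with z hz
    have h2 : g =ᶠ[𝓝 z] fun _ => (0 : ℂ) := hz
    rw [dif, h2.mfderiv_eq]
    exact mfderiv_const
  have h2 : x ∈ closure {z | z ∈ D ∧ dif E g z ≠ 0} := hcl ⟨h.self_of_nhds, hxV⟩
  exact (mem_closure_iff_frequently.1 h2) (h1.mono fun z hz hz' => hz'.2 hz)

theorem localEq_locAnalytic {n : ℕ} {Z : Type} [TopologicalSpace Z] [ChartedSpace (Cm n) Z]
    {D : Set Z} {g : Z → ℂ} {x : Z} (hD : IsLocalEq (Cm n) D g x) : LocAnalytic (p := n) D x := by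
  obtain ⟨V, hV, hxV, hg, hgD, hcl⟩ := hD
  refine ⟨Unit, V, fun _ => g, hV, hxV, fun _ => hg, fun z hz => ?_⟩
  rw [hgD z hz]
  exact ⟨fun h _ => h, fun h => h ()⟩

end prime

variable {p d : ℕ} {X Y : Type} [TopologicalSpace X] [ChartedSpace (Cm (p + d)) X]
  [IsManifold 𝓘(ℂ, Cm (p + d)) ω X] [TopologicalSpace Y] [ChartedSpace (Cm p) Y]
  [IsManifold 𝓘(ℂ, Cm p) ω Y]

/-- The set of the points of the fibre near which the fibre is contained in `D` is closed. -/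
theorem fibre_closed {f : X → Y} (hf : ContMDiff 𝓘(ℂ, Cm (p + d)) 𝓘(ℂ, Cm p) ω f) {x₁ : X}
    (hs : Function.Surjective (mfderiv 𝓘(ℂ, Cm (p + d)) 𝓘(ℂ, Cm p) f x₁)) {D : Set X} {g : X → ℂ}
    (hD : IsLocalEq (Cm (p + d)) D g x₁) :
    ∀ᶠ x₂ in 𝓝 x₁, f x₂ = f x₁ → (∀ᶠ z in 𝓝 x₂, f z = f x₁ → z ∈ D) →
      ∀ᶠ z in 𝓝 x₁, f z = f x₁ → z ∈ D := by
  obtain ⟨V, hV, hxV, hg, hgD, -⟩ := hD
  obtain ⟨c, hxc, hc⟩ := H152.K.exists_prodChart (d := d) hf (chart_mem_atlas (Cm p) (f x₁))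
    (mem_chart_source _ _) hs
  set χ := chartAt (Cm p) (f x₁) with hχ
  have h1 : IsOpen (c.target ∩ c.symm ⁻¹' V) :=
    c.continuousOn_symm.isOpen_inter_preimage c.open_target hV
  have h2 : c x₁ ∈ c.target ∩ c.symm ⁻¹' V := by
    refine ⟨c.map_source hxc, ?_⟩
    rw [mem_preimage, c.left_inv hxc]
    exact hxV
  obtain ⟨ε, hε, hball⟩ := Metric.isOpen_iff.1 h1 _ h2
  have h3 : ∀ᶠ z in 𝓝 x₁, z ∈ c.source ∧ c z ∈ ball (c x₁) ε := by
    filter_upwards [c.open_source.mem_nhds hxc,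
      (c.continuousAt hxc).eventually (isOpen_ball.mem_nhds (mem_ball_self hε))] with z h1 h2
    exact ⟨h1, h2⟩
  have hfst : ∀ z, z ∈ c.source → f z = f x₁ → c z = ((c x₁).1, (c z).2) := by
    intro z hz hfz
    refine Prod.ext ?_ rfl
    rw [(hc.fst z hz).2, (hc.fst x₁ hxc).2, hfz]
  have hsub : ∀ v ∈ ball (c x₁).2 ε, ((c x₁).1, v) ∈ ball (c x₁) ε := by
    intro v hv
    rw [mem_ball, Prod.dist_eq, max_lt_iff]
    exact ⟨by rw [dist_self]; exact hε, hv⟩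
  filter_upwards [h3] with x₂ hx₂ hfx₂ hD₂
  obtain ⟨hx₂c, hx₂b⟩ := hx₂
  have hana : AnalyticOnNhd ℂ (fun v : Cm d => g (c.symm ((c x₁).1, v))) (ball (c x₁).2 ε) := by
    intro v hv
    obtain ⟨h4, h5⟩ := hball (hsub v hv)
    have h6 : ContMDiffAt 𝓘(ℂ, Cm p × Cm d) 𝓘(ℂ, Cm (p + d)) ω c.symm ((c x₁).1, v) :=
      (hc.symm_hol _ h4).contMDiffAt (c.open_target.mem_nhds h4)
    have h7 : ContMDiffAt 𝓘(ℂ, Cm d) 𝓘(ℂ, Cm p × Cm d) ω (fun v : Cm d => ((c x₁).1, v)) v :=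
      ContDiffAt.contMDiffAt (by fun_prop)
    have h8 : ContMDiffAt 𝓘(ℂ, Cm d) 𝓘(ℂ, ℂ) ω (fun v : Cm d => g (c.symm ((c x₁).1, v))) v :=
      ContMDiffAt.comp (g := g) (f := fun v : Cm d => c.symm ((c x₁).1, v)) v (hg _ h5)
        (ContMDiffAt.comp (g := c.symm) (f := fun v : Cm d => ((c x₁).1, v)) v h6 h7)
    exact (contMDiffAt_iff_contDiffAt.1 h8).analyticAt
  have hx₂eq := hfst x₂ hx₂c hfx₂
  have hx₂v : (c x₂).2 ∈ ball (c x₁).2 ε := by
    rw [mem_ball, Prod.dist_eq, max_lt_iff] at hx₂b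
    exact hx₂b.2
  have hz0 : (fun v : Cm d => g (c.symm ((c x₁).1, v))) =ᶠ[𝓝 (c x₂).2] 0 := by
    have h4 : Tendsto (fun v : Cm d => c.symm ((c x₁).1, v)) (𝓝 (c x₂).2) (𝓝 x₂) := by
      have h5 : Tendsto c.symm (𝓝 (c x₂)) (𝓝 x₂) := by
        have := (c.continuousAt_symm (c.map_source hx₂c)).tendsto
        rwa [c.left_inv hx₂c] at this
      have h6 : Tendsto (fun v : Cm d => ((c x₁).1, v)) (𝓝 (c x₂).2) (𝓝 (c x₂)) := by
        have h7 : ContinuousAt (fun v : Cm d => ((c x₁).1, v)) (c x₂).2 := by fun_prop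
        have h8 : Tendsto (fun v : Cm d => ((c x₁).1, v)) (𝓝 (c x₂).2)
          (𝓝 ((c x₁).1, (c x₂).2)) := h7
        rwa [← hx₂eq] at h8
      exact h5.comp h6
    filter_upwards [h4.eventually hD₂, isOpen_ball.mem_nhds hx₂v] with v hv hvb
    obtain ⟨h5, h6⟩ := hball (hsub v hvb)
    refine (hgD _ h6).1 (hv ?_)
    have h7 := c.map_target h5
    obtain ⟨h8, h9⟩ := hc.fst _ h7
    rw [c.right_inv h5] at h9
    obtain ⟨h10, h11⟩ := hc.fst _ hxc
    exact χ.injOn h8 h10 (by rw [← h9, ← h11])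
  have hall := hana.eqOn_zero_of_preconnected_of_eventuallyEq_zero
    (convex_ball _ _).isPreconnected hx₂v hz0
  filter_upwards [h3] with z hz hfz
  obtain ⟨hzc, hzb⟩ := hz
  have hzeq := hfst z hzc hfz
  have hzv : (c z).2 ∈ ball (c x₁).2 ε := by
    rw [mem_ball, Prod.dist_eq, max_lt_iff] at hzb
    exact hzb.2
  have h4 : g (c.symm ((c x₁).1, (c z).2)) = 0 := hall hzv
  rw [← hzeq, c.left_inv hzc] at h4
  have h5 := (hball hzb).2
  rw [mem_preimage, c.left_inv hzc] at h5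
  exact (hgD z h5).2 h4

/-- The connected fibre `f⁻¹(y)` is not contained in `D`: no open subset of it is. -/
theorem fibre_dense {f : X → Y} {S : Set Y} (hf : ContMDiff 𝓘(ℂ, Cm (p + d)) 𝓘(ℂ, Cm p) ω f)
    (hp : IsProperFibration (n := p + d) (p := p) f S) {D : Set X}
    (hD : ∀ x, ∃ g, IsLocalEq (Cm (p + d)) D g x) {y : Y} (hy : y ∉ S) (hn : ¬ f ⁻¹' {y} ⊆ D) :
    ∀ x, f x = y → ¬ ∀ᶠ z in 𝓝 x, f z = y → z ∈ D := by
  set I : Set X := {x | ∀ᶠ z in 𝓝 x, f z = y → z ∈ D} with hI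
  have hIo : IsOpen I := by
    rw [isOpen_iff_mem_nhds]
    exact fun x hx => eventually_eventually_nhds.2 hx
  have hO : ∀ x : {x : X // f x = y ∧ x ∉ I}, ∃ W : Set X, IsOpen W ∧ (x : X) ∈ W ∧
      ∀ z ∈ W, f z = y → z ∉ I := by
    rintro ⟨x, hx, hxI⟩
    obtain ⟨g, hg⟩ := hD x
    have h1 := fibre_closed hf (hp.submersive x (by rw [hx]; exact hy)) hg
    rw [hx] at h1
    obtain ⟨W, hW, hWo, hxW⟩ := _root_.eventually_nhds_iff.1 h1
    exact ⟨W, hWo, hxW, fun z hz hfz hzI => hxI (hW z hz hfz hzI)⟩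
  choose W hWo hxW hW using hO
  intro x hx hxI
  refine hn fun z hz => ?_
  by_contra hzD
  have hzI : z ∉ I := fun h => hzD ((show ∀ᶠ z' in 𝓝 z, f z' = y → z' ∈ D from h).self_of_nhds hz)
  obtain ⟨t, ht, htI, htW⟩ := (hp.connected y hy).isPreconnected I (⋃ x, W x) hIo
    (isOpen_iUnion hWo) (fun t ht => by
      by_cases h : t ∈ I
      · exact Or.inl h
      · exact Or.inr (mem_iUnion.2 ⟨⟨t, ht, h⟩, hxW _⟩)) ⟨x, hx, hxI⟩
    ⟨z, hz, mem_iUnion.2 ⟨⟨z, hz, hzI⟩, hxW _⟩⟩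
  obtain ⟨s, hs⟩ := mem_iUnion.1 htW
  exact hW s t hs ht htI

/-- The same for a finite union. -/
theorem fibre_off {f : X → Y} {y : Y} {𝒜 : Set (Set X)} (h𝒜 : 𝒜.Finite)
    (hc : ∀ D ∈ 𝒜, IsClosed D)
    (hD : ∀ D ∈ 𝒜, ∀ x, f x = y → ¬ ∀ᶠ z in 𝓝 x, f z = y → z ∈ D) :
    ∀ x, f x = y → ∃ᶠ z in 𝓝 x, f z = y ∧ ∀ D ∈ 𝒜, z ∉ D := by
  induction 𝒜, h𝒜 using Set.Finite.induction_on with
  | empty =>
    intro x hx
    rw [frequently_nhds_iff]
    exact fun U hxU _ => ⟨x, hxU, hx, fun D hD => absurd hD (notMem_empty D)⟩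
  | @insert D 𝒜 hDA h𝒜 ih =>
    intro x hx
    have h1 := ih (fun D hD => hc D (mem_insert_of_mem _ hD))
      (fun D' hD' => hD D' (mem_insert_of_mem _ hD')) x hx
    rw [frequently_nhds_iff] at h1 ⊢
    intro U hxU hU
    obtain ⟨z, hzU, hz, hzA⟩ := h1 U hxU hU
    have h2 : ∀ᶠ w in 𝓝 z, ∀ D ∈ 𝒜, w ∉ D := by
      rw [Filter.eventually_all_finite h𝒜]
      exact fun D' hD' => (hc D' (mem_insert_of_mem _ hD')).isOpen_compl.mem_nhds (hzA D' hD')
    have h3 := hD D (mem_insert _ _) z hz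
    rw [not_eventually] at h3
    obtain ⟨w, hw, hwA, hwU⟩ := (h3.and_eventually (h2.and (hU.mem_nhds hzU))).exists
    rw [Classical.not_imp] at hw
    refine ⟨w, hwU, hw.1, fun D' hD' => ?_⟩
    rcases mem_insert_iff.1 hD' with rfl | h
    · exact hw.2
    · exact hwA D' h

omit [IsManifold 𝓘(ℂ, Cm (p + d)) ω X] [IsManifold 𝓘(ℂ, Cm p) ω Y] in
/-- `Y` is compact, if `f` is a proper fibration outside the small set `S`. -/
theorem compactSpace_base [T2Space Y] [CompactSpace X] {f : X → Y} {S : Set Y}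
    (hf : ContMDiff 𝓘(ℂ, Cm (p + d)) 𝓘(ℂ, Cm p) ω f)
    (hp : IsProperFibration (n := p + d) (p := p) f S) (hS : IsSmallSet (Cm p) S) :
    CompactSpace Y ∧ Function.Surjective f := by
  have h1 : range f = univ := by
    have h2 : IsClosed (range f) := (isCompact_range hf.continuous).isClosed
    have h3 : Dense (range f) := (H383.Gen.dense_compl_small hS).mono fun y hy => by
      obtain ⟨x, hx⟩ := (hp.connected y hy).nonempty
      exact ⟨x, hx⟩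
    rw [← h2.closure_eq]
    exact h3.closure_eq
  refine ⟨?_, range_eq_univ.1 h1⟩
  rw [← isCompact_univ_iff, ← h1]
  exact isCompact_range hf.continuous

end Vale.Agent.P281.H364.TD
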