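import Vale.Agent.P281.H969.K.Small
import Vale.Agent.P281.H152.K.Chart
import Vale.Agent.P281.H64.SpecG

/-!
# P281, project T-Delta (helper364): block D8, part 1

`f : X → Y` is a proper submersion over `Y ∖ S`, and the complement of `R` is analytic in
`f⁻¹(Y ∖ S)`: the set of the `y` whose fibre does not meet `R` is analytic in `Y ∖ S`, so it is small
if it is not everything.
-/

open Set Filter Metric Vale.Agent.P281 Vale.Agent.P281.J
open Vale.Agent.P281.H64.Gen (IsSmallSet)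
open Vale.Agent.P281.H64 (Cm IsProperFibration)
open Vale.Agent.P281.H969.K (LocAnalytic small_of_local)
open scoped Topology ContDiff Manifold

noncomputable section

namespace Vale.Agent.P281.H364.TD

variable {p d : ℕ} {X Y : Type} [TopologicalSpace X] [ChartedSpace (Cm (p + d)) X]
  [TopologicalSpace Y] [T2Space Y] [ChartedSpace (Cm p) Y]

theorem exists_tube {f : X → Y} {S : Set Y} (hf : Continuous f)
    (hp : IsProperFibration (n := p + d) (p := p) f S) {y₀ : Y} (hy₀ : y₀ ∉ S) {W : Set X}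
    (hW : IsOpen W) (h : f ⁻¹' {y₀} ⊆ W) : ∀ᶠ y in 𝓝 y₀, f ⁻¹' {y} ⊆ W := by
  have hLC : LocallyCompactSpace Y := ChartedSpace.locallyCompactSpace (Cm p) Y
  obtain ⟨K, hK, hKS, hKc⟩ := local_compact_nhds (hp.isClosed.isOpen_compl.mem_nhds hy₀)
  have h1 : IsCompact (f ⁻¹' K \ W) := (hp.proper K hKc hKS).diff hW
  have h2 : IsClosed (f '' (f ⁻¹' K \ W)) := (h1.image hf).isClosed
  have h3 : y₀ ∉ f '' (f ⁻¹' K \ W) := by
    rintro ⟨x, ⟨-, hx⟩, hxy⟩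
    exact hx (h hxy)
  filter_upwards [hK, h2.isOpen_compl.mem_nhds h3] with y hyK hy x hx
  by_contra hxW
  refine hy ⟨x, ⟨?_, hxW⟩, hx⟩
  rw [mem_preimage, show f x = y from hx]
  exact hyK

variable [IsManifold 𝓘(ℂ, Cm (p + d)) ω X] [IsManifold 𝓘(ℂ, Cm p) ω Y]

/-- The set of the `y` whose fibre does not meet `R` is analytic in `Y ∖ S`, if the complement of
`R` is analytic in `f⁻¹(Y ∖ S)`. -/
theorem locAnalytic_over {f : X → Y} {S : Set Y}
    (hf : ContMDiff 𝓘(ℂ, Cm (p + d)) 𝓘(ℂ, Cm p) ω f)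
    (hp : IsProperFibration (n := p + d) (p := p) f S) {R : Set X}
    (hR : ∀ x, f x ∉ S → LocAnalytic (p := p + d) Rᶜ x) {y₀ : Y} (hy₀ : y₀ ∉ S) :
    LocAnalytic (p := p) {y | ∀ x, f x = y → x ∉ R} y₀ := by
  classical
  set χ := chartAt (Cm p) y₀ with hχ
  have hχa : χ ∈ atlas (Cm p) Y := chart_mem_atlas _ _
  have hχs : y₀ ∈ χ.source := mem_chart_source _ _
  -- the local data
  have key : ∀ x : f ⁻¹' {y₀}, ∃ (ι : Type) (c : OpenPartialHomeomorph X (Cm p × Cm d))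
      (A : Set (Cm p)) (B : Set (Cm d)) (P : ι → X → ℂ), H152.K.IsProd f χ c ∧ (x : X) ∈ c.source ∧
      IsOpen A ∧ IsOpen B ∧ χ y₀ ∈ A ∧ (c x).2 ∈ B ∧ A ×ˢ B ⊆ c.target ∧
      (∀ q ∈ A ×ˢ B, ∀ i, HolAt (Cm (p + d)) (P i) (c.symm q)) ∧
      ∀ q ∈ A ×ˢ B, c.symm q ∉ R ↔ ∀ i, P i (c.symm q) = 0 := by
    rintro ⟨x, hx⟩
    have hx : f x = y₀ := hx
    have hxS : f x ∉ S := by rw [hx]; exact hy₀
    obtain ⟨c, hxc, hc⟩ := H152.K.exists_prodChart (d := d) hf hχa (by rw [hx]; exact hχs)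
      (hp.submersive x hxS)
    obtain ⟨ι, U, P, hU, hxU, hP, hPD⟩ := hR x hxS
    have h1 : IsOpen (c.target ∩ c.symm ⁻¹' U) :=
      c.continuousOn_symm.isOpen_inter_preimage c.open_target hU
    have h2 : c x ∈ c.target ∩ c.symm ⁻¹' U := by
      refine ⟨c.map_source hxc, ?_⟩
      rw [mem_preimage, c.left_inv hxc]
      exact hxU
    have h3 : c x = (χ y₀, (c x).2) := by
      refine Prod.ext ?_ rfl
      rw [(hc.fst x hxc).2, hx]
    obtain ⟨A, B, hA, hB, hxA, hxB, hAB⟩ := isOpen_prod_iff.1 h1 (χ y₀) (c x).2 (h3 ▸ h2)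
    refine ⟨ι, c, A, B, P, hc, hxc, hA, hB, hxA, hxB, fun q hq => (hAB hq).1,
      fun q hq i => hP i _ (hAB hq).2, fun q hq => ?_⟩
    exact hPD _ (hAB hq).2
  choose ι c A B P hc hxc hA hB hxA hxB hAB hP hPD using key
  -- a finite subcover
  have hKc : IsCompact (f ⁻¹' {y₀}) := hp.proper _ isCompact_singleton (by
    rintro y rfl
    exact hy₀)
  have hN : ∀ x, IsOpen ((c x).source ∩ c x ⁻¹' (A x ×ˢ B x)) := fun x =>
    (c x).continuousOn.isOpen_inter_preimage (c x).open_source ((hA x).prod (hB x))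
  have hxN : ∀ x, (x : X) ∈ (c x).source ∩ c x ⁻¹' (A x ×ˢ B x) := by
    intro x
    refine ⟨hxc x, ?_, hxB x⟩
    show (c x x).1 ∈ A x
    rw [((hc x).fst x (hxc x)).2, show f x = y₀ from x.2]
    exact hxA x
  obtain ⟨t, ht⟩ := hKc.elim_finite_subcover (fun x => (c x).source ∩ c x ⁻¹' (A x ×ˢ B x)) hN
    fun x hx => mem_iUnion.2 ⟨⟨x, hx⟩, hxN ⟨x, hx⟩⟩
  have htube := exists_tube hf.continuous hp hy₀ (isOpen_biUnion fun x (_ : x ∈ t) => hN x) ht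
  have hAt : ∀ᶠ y in 𝓝 y₀, ∀ x ∈ t, χ y ∈ A x := by
    rw [Filter.eventually_all_finset]
    exact fun x _ => (χ.continuousAt hχs).eventually ((hA x).mem_nhds (hxA x))
  obtain ⟨U, hU, hUo, hyU⟩ := _root_.eventually_nhds_iff.1
    (htube.and (hAt.and (χ.open_source.mem_nhds hχs)))
  refine ⟨Σ x : t, ι x × B x, U, fun a y => P a.1 a.2.1 ((c a.1).symm (χ y, a.2.2)), hUo, hyU,
    ?_, ?_⟩
  · rintro ⟨⟨x, hxt⟩, i, v, hv⟩ y hy
    obtain ⟨h1, h2, h3⟩ := hU y hy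
    have h4 : (χ y, v) ∈ A x ×ˢ B x := ⟨h2 x hxt, hv⟩
    have h5 : ContMDiffAt 𝓘(ℂ, Cm p) 𝓘(ℂ, Cm p) ω χ y :=
      contMDiffAt_of_mem_maximalAtlas (IsManifold.subset_maximalAtlas hχa) h3
    have h6 : ContMDiffAt 𝓘(ℂ, Cm p) 𝓘(ℂ, Cm p × Cm d) ω (fun y => (χ y, v)) y :=
      ContMDiffAt.comp (g := fun t : Cm p => (t, v)) y
        (ContDiffAt.contMDiffAt (by fun_prop)) h5
    have h7 : ContMDiffAt 𝓘(ℂ, Cm p × Cm d) 𝓘(ℂ, Cm (p + d)) ω (c x).symm (χ y, v) :=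
      ((hc x).symm_hol _ (hAB x h4)).contMDiffAt ((c x).open_target.mem_nhds (hAB x h4))
    exact ContMDiffAt.comp (g := P x i) y (hP x _ h4 i) (ContMDiffAt.comp y h7 h6)
  · intro y hy
    obtain ⟨h1, h2, h3⟩ := hU y hy
    constructor
    · rintro h ⟨⟨x, hxt⟩, i, v, hv⟩
      have h4 : (χ y, v) ∈ A x ×ˢ B x := ⟨h2 x hxt, hv⟩
      refine (hPD x _ h4).1 (h _ ?_) i
      have h5 := (c x).map_target (hAB x h4)
      obtain ⟨h6, h7⟩ := (hc x).fst _ h5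
      rw [(c x).right_inv (hAB x h4)] at h7
      exact χ.injOn h6 h3 h7.symm
    · intro h x' hx' hx'R
      obtain ⟨x, hx⟩ := mem_iUnion.1 (h1 hx')
      obtain ⟨hxt, h4, h5⟩ := mem_iUnion.1 hx
      have h6 : c x x' = (χ y, (c x x').2) := by
        refine Prod.ext ?_ rfl
        rw [((hc x).fst x' h4).2, show f x' = y from hx']
      have h7 := (hPD x _ h5).2 fun i => by
        have h8 := h ⟨⟨x, hxt⟩, i, (c x x').2, h5.2⟩
        rw [h6]
        exact h8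
      rw [(c x).left_inv h4] at h7
      exact h7 hx'R

/-- **D8, abstract form.** -/
theorem small_over [SecondCountableTopology Y] {f : X → Y} {S : Set Y}
    (hf : ContMDiff 𝓘(ℂ, Cm (p + d)) 𝓘(ℂ, Cm p) ω f)
    (hp : IsProperFibration (n := p + d) (p := p) f S) (hS : IsSmallSet (Cm p) S)
    (hpre : IsPreconnected Sᶜ) {R : Set X}
    (hR : ∀ x, f x ∉ S → LocAnalytic (p := p + d) Rᶜ x) (hne : ∃ x ∈ R, f x ∉ S) :
    IsSmallSet (Cm p) (S ∪ {y | ∀ x, f x = y → x ∉ R}) :=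
  small_of_local hS hpre (fun y₀ hy₀ => locAnalytic_over hf hp hR hy₀) (by
    obtain ⟨x, h1, h2⟩ := hne
    exact ⟨f x, h2, fun h => h x rfl h1⟩)

end Vale.Agent.P281.H364.TD
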