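import Vale.Agent.P281.H969.K.Gauss
import Vale.Agent.P281.H364.TD.Over

/-!
# P281, project T-Delta (helper364): block D8, part 2

The rank on the fibres of `f` of the meromorphic maps `(a 1 / a 0, …, a r / a 0)`: the set of the
points where it is less than `r` is analytic.
-/

open Set Filter Metric Vale.Agent.P281 Vale.Agent.P281.J
open Vale.Agent.P281.H64 (Cm IsProperFibration)
open Vale.Agent.P281.H969.K (LocAnalytic Wr surj_quot_iff wrow analyticAt_dd₂ analyticAt_det)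
open scoped Topology ContDiff Manifold

noncomputable section

namespace Vale.Agent.P281.H364.TD

variable {p d : ℕ} {X Y : Type} [TopologicalSpace X] [ChartedSpace (Cm (p + d)) X]
  [TopologicalSpace Y]

/-- The quotients `a k / a 0` are defined and submersive at `x`, on the fibre of `f`. -/
def SubAt (p d : ℕ) {X Y : Type} [TopologicalSpace X] [ChartedSpace (Cm (p + d)) X] (f : X → Y)
    {r : ℕ} (a : Fin (r + 1) → X → ℂ) (x : X) : Prop :=
  a 0 x ≠ 0 ∧ ∃ (q : Cm d → X) (v₀ : Cm d), ContMDiffAt 𝓘(ℂ, Cm d) 𝓘(ℂ, Cm (p + d)) ω q v₀ ∧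
    q v₀ = x ∧ (∀ᶠ v in 𝓝 v₀, f (q v) = f x) ∧ Function.Surjective fun (ξ : Cm d) (k : Fin r) =>
      fderiv ℂ (fun v => a k.succ (q v) / a 0 (q v)) v₀ ξ

section
variable {f : X → Y} {χ : OpenPartialHomeomorph Y (Cm p)}
  {c : OpenPartialHomeomorph X (Cm p × Cm d)}

/-- The slice `v ↦ c⁻¹(t, v)`. -/
theorem slice_hol (hc : H152.K.IsProd f χ c) {x : X} (hx : x ∈ c.source) :
    ContMDiffAt 𝓘(ℂ, Cm d) 𝓘(ℂ, Cm (p + d)) ω (fun v => c.symm ((c x).1, v)) (c x).2 := by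
  have h1 : ContMDiffAt 𝓘(ℂ, Cm p × Cm d) 𝓘(ℂ, Cm (p + d)) ω c.symm ((c x).1, (c x).2) :=
    (hc.symm_hol _ (c.map_source hx)).contMDiffAt (c.open_target.mem_nhds (c.map_source hx))
  have h2 : ContMDiffAt 𝓘(ℂ, Cm d) 𝓘(ℂ, Cm p × Cm d) ω (fun v : Cm d => ((c x).1, v)) (c x).2 :=
    ContDiffAt.contMDiffAt (by fun_prop)
  exact ContMDiffAt.comp (g := c.symm) (f := fun v : Cm d => ((c x).1, v)) (c x).2 h1 h2

theorem slice_mem (_hc : H152.K.IsProd f χ c) {x : X} (hx : x ∈ c.source) :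
    ∀ᶠ v in 𝓝 (c x).2, ((c x).1, v) ∈ c.target := by
  have h1 : ContinuousAt (fun v : Cm d => ((c x).1, v)) (c x).2 := by fun_prop
  exact h1.eventually (c.open_target.mem_nhds (c.map_source hx))

theorem slice_fib (hc : H152.K.IsProd f χ c) {x : X} (hx : x ∈ c.source) :
    ∀ᶠ v in 𝓝 (c x).2, f (c.symm ((c x).1, v)) = f x := by
  filter_upwards [slice_mem hc hx] with v hv
  have h1 := c.map_target hv
  obtain ⟨h2, h3⟩ := hc.fst _ h1
  rw [c.right_inv hv] at h3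
  obtain ⟨h4, h5⟩ := hc.fst _ hx
  exact χ.injOn h2 h4 (by rw [← h3, ← h5])

/-- `SubAt` in a product chart. -/
theorem subAt_iff (hc : H152.K.IsProd f χ c) {x : X} (hx : x ∈ c.source) {r : ℕ}
    {a : Fin (r + 1) → X → ℂ} (ha : ∀ k, HolAt (Cm (p + d)) (a k) x) :
    SubAt p d f a x ↔ a 0 x ≠ 0 ∧ Function.Surjective fun (ξ : Cm d) (k : Fin r) =>
      fderiv ℂ (fun v => a k.succ (c.symm ((c x).1, v)) / a 0 (c.symm ((c x).1, v))) (c x).2 ξ := by
  constructor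
  · rintro ⟨h0, q, v₀, hq, hqx, hqf, hs⟩
    refine ⟨h0, ?_⟩
    have hcq : ContMDiffAt 𝓘(ℂ, Cm d) 𝓘(ℂ, Cm p × Cm d) ω (fun v => c (q v)) v₀ := by
      have h1 : ContMDiffAt 𝓘(ℂ, Cm (p + d)) 𝓘(ℂ, Cm p × Cm d) ω c (q v₀) := by
        rw [hqx]
        exact (hc.hol x hx).contMDiffAt (c.open_source.mem_nhds hx)
      exact ContMDiffAt.comp (g := c) (f := q) v₀ h1 hq
    have hθ : DifferentiableAt ℂ (fun v => (c (q v)).2) v₀ := by
      have h1 := (contMDiffAt_iff_contDiffAt.1 hcq).differentiableAt (by simp)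
      exact differentiableAt_snd.comp v₀ h1
    have hqs : ∀ᶠ v in 𝓝 v₀, q v ∈ c.source :=
      hq.continuousAt.eventually (by rw [hqx]; exact c.open_source.mem_nhds hx)
    have hF : ∀ k, DifferentiableAt ℂ (fun v => a k (c.symm ((c x).1, v))) (c x).2 := by
      intro k
      have h1 : ContMDiffAt 𝓘(ℂ, Cm (p + d)) 𝓘(ℂ, ℂ) ω (a k) (c.symm ((c x).1, (c x).2)) := by
        have h2 : c.symm ((c x).1, (c x).2) = x := c.left_inv hx
        rw [h2]
        exact ha k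
      have h2 := ContMDiffAt.comp (g := a k) (f := fun v => c.symm ((c x).1, v)) (c x).2 h1
        (slice_hol hc hx)
      exact (contMDiffAt_iff_contDiffAt.1 h2).differentiableAt (by simp)
    have hx' : c.symm ((c x).1, (c x).2) = x := c.left_inv hx
    have hG : ∀ k : Fin r, DifferentiableAt ℂ (fun v => a k.succ (c.symm ((c x).1, v)) /
        a 0 (c.symm ((c x).1, v))) (c x).2 := by
      intro k
      have h1 : a 0 (c.symm ((c x).1, (c x).2)) ≠ 0 := by rw [hx']; exact h0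
      simp only [div_eq_mul_inv]
      exact (hF k.succ).mul (DifferentiableAt.fun_inv (hF 0) h1)
    have hv₀ : (c (q v₀)).2 = (c x).2 := by rw [hqx]
    intro η
    obtain ⟨ξ, hξ⟩ := hs η
    refine ⟨fderiv ℂ (fun v => (c (q v)).2) v₀ ξ, ?_⟩
    rw [← hξ]
    funext k
    have h3 : (fun v => a k.succ (q v) / a 0 (q v)) =ᶠ[𝓝 v₀]
        (fun w => a k.succ (c.symm ((c x).1, w)) / a 0 (c.symm ((c x).1, w))) ∘
          fun v => (c (q v)).2 := by
      filter_upwards [hqs, hqf] with v h4 h5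
      have h6 : c (q v) = ((c x).1, (c (q v)).2) := by
        refine Prod.ext ?_ rfl
        rw [(hc.fst _ h4).2, (hc.fst _ hx).2, h5]
      have h7 : q v = c.symm ((c x).1, (c (q v)).2) := by
        rw [← h6, c.left_inv h4]
      show a k.succ (q v) / a 0 (q v) = a k.succ (c.symm ((c x).1, (c (q v)).2)) /
        a 0 (c.symm ((c x).1, (c (q v)).2))
      rw [← h7]
    show fderiv ℂ _ (c x).2 _ = fderiv ℂ (fun v => a k.succ (q v) / a 0 (q v)) v₀ ξ
    rw [h3.fderiv_eq, fderiv_comp (x := v₀) (by rw [hv₀]; exact hG k) hθ, hv₀]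
    rfl
  · rintro ⟨h0, hs⟩
    exact ⟨h0, fun v => c.symm ((c x).1, v), (c x).2, slice_hol hc hx, c.left_inv hx,
      slice_fib hc hx, hs⟩

/-- A determinant of the 1-jets in the direction of the fibres, in a product chart. -/
def wrc (c : OpenPartialHomeomorph X (Cm p × Cm d)) {r : ℕ} (a : Fin (r + 1) → X → ℂ)
    (m : Fin r → Fin d) (x : X) : ℂ :=
  Wr (fun k v => a k (c.symm ((c x).1, v))) m (c x).2

theorem subAt_iff_wrc (hc : H152.K.IsProd f χ c) {x : X} (hx : x ∈ c.source) {r : ℕ}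
    {a : Fin (r + 1) → X → ℂ} (ha : ∀ k, HolAt (Cm (p + d)) (a k) x) :
    SubAt p d f a x ↔ ∃ m : Fin r → Fin d, a 0 x * wrc c a m x ≠ 0 := by
  have hx' : c.symm ((c x).1, (c x).2) = x := c.left_inv hx
  have hF : ∀ k, DifferentiableAt ℂ (fun v => a k (c.symm ((c x).1, v))) (c x).2 := by
    intro k
    have h1 : ContMDiffAt 𝓘(ℂ, Cm (p + d)) 𝓘(ℂ, ℂ) ω (a k) (c.symm ((c x).1, (c x).2)) := by
      rw [hx']
      exact ha k
    have h2 := ContMDiffAt.comp (g := a k) (f := fun v => c.symm ((c x).1, v)) (c x).2 h1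
      (slice_hol hc hx)
    exact (contMDiffAt_iff_contDiffAt.1 h2).differentiableAt (by simp)
  rw [subAt_iff hc hx ha]
  constructor
  · rintro ⟨h0, hs⟩
    obtain ⟨m, hm⟩ := (surj_quot_iff (u := fun k v => a k (c.symm ((c x).1, v))) hF
      (by rw [hx']; exact h0)).1 hs
    exact ⟨m, mul_ne_zero h0 hm⟩
  · rintro ⟨m, hm⟩
    have h0 : a 0 x ≠ 0 := left_ne_zero_of_mul hm
    exact ⟨h0, (surj_quot_iff (u := fun k v => a k (c.symm ((c x).1, v))) hF
      (by rw [hx']; exact h0)).2 ⟨m, right_ne_zero_of_mul hm⟩⟩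

theorem hol_wrc (hc : H152.K.IsProd f χ c) {x : X} (hx : x ∈ c.source) {r : ℕ}
    {a : Fin (r + 1) → X → ℂ} (ha : ∀ k, HolAt (Cm (p + d)) (a k) x) (m : Fin r → Fin d) :
    HolAt (Cm (p + d)) (wrc c a m) x := by
  have hx' : c.symm (c x) = x := c.left_inv hx
  have h1 : ∀ k, AnalyticAt ℂ (fun q : Cm p × Cm d => a k (c.symm q)) (c x) := by
    intro k
    have h2 : ContMDiffAt 𝓘(ℂ, Cm p × Cm d) 𝓘(ℂ, Cm (p + d)) ω c.symm (c x) :=
      (hc.symm_hol _ (c.map_source hx)).contMDiffAt (c.open_target.mem_nhds (c.map_source hx))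
    have h3 : ContMDiffAt 𝓘(ℂ, Cm (p + d)) 𝓘(ℂ, ℂ) ω (a k) (c.symm (c x)) := by
      rw [hx']
      exact ha k
    exact (contMDiffAt_iff_contDiffAt.1 (ContMDiffAt.comp (g := a k) (c x) h3 h2)).analyticAt
  have h2 : AnalyticAt ℂ (fun q : Cm p × Cm d =>
      Wr (fun k v => a k (c.symm (q.1, v))) m q.2) (c x) := by
    refine analyticAt_det fun i b => ?_
    refine Fin.cases ?_ (fun b => ?_) b
    · exact h1 i
    · exact analyticAt_dd₂ (h1 i) (m b)
  have h3 : ContMDiffAt 𝓘(ℂ, Cm (p + d)) 𝓘(ℂ, Cm p × Cm d) ω c x :=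
    (hc.hol x hx).contMDiffAt (c.open_source.mem_nhds hx)
  exact ContMDiffAt.comp (g := fun q : Cm p × Cm d =>
    Wr (fun k v => a k (c.symm (q.1, v))) m q.2) (f := c) x h2.contDiffAt.contMDiffAt h3

variable [IsManifold 𝓘(ℂ, Cm (p + d)) ω X] [ChartedSpace (Cm p) Y] [IsManifold 𝓘(ℂ, Cm p) ω Y]

/-- The set of the points where none of the maps `(a j 1 / a j 0, …, a j r / a j 0)` is submersive on
the fibre of `f` is analytic near `x₀`. -/
theorem locAnalytic_sub {f : X → Y} (hf : ContMDiff 𝓘(ℂ, Cm (p + d)) 𝓘(ℂ, Cm p) ω f) {x₀ : X}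
    (hs : Function.Surjective (mfderiv 𝓘(ℂ, Cm (p + d)) 𝓘(ℂ, Cm p) f x₀)) {J : Type} {r : ℕ}
    {N : Set X} (hN : N ∈ 𝓝 x₀) (a : J → Fin (r + 1) → X → ℂ)
    (ha : ∀ x ∈ N, ∀ j k, HolAt (Cm (p + d)) (a j k) x) {R : Set X}
    (hR : ∀ x ∈ N, x ∈ R ↔ ∃ j, SubAt p d f (a j) x) : LocAnalytic (p := p + d) Rᶜ x₀ := by
  obtain ⟨c, hxc, hc⟩ := H152.K.exists_prodChart (d := d) hf (chart_mem_atlas (Cm p) (f x₀))
    (mem_chart_source _ _) hs
  refine ⟨J × (Fin r → Fin d), interior N ∩ c.source,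
    fun j x => a j.1 0 x * wrc c (a j.1) j.2 x, isOpen_interior.inter c.open_source,
    ⟨mem_interior_iff_mem_nhds.2 hN, hxc⟩, ?_, ?_⟩
  · rintro ⟨j, m⟩ x ⟨hxN, hx⟩
    have h1 := ha x (interior_subset hxN) j
    exact ContMDiffAt.mul (h1 0) (hol_wrc hc hx h1 m)
  · rintro x ⟨hxN, hx⟩
    have h1 := ha x (interior_subset hxN)
    rw [mem_compl_iff, hR x (interior_subset hxN)]
    constructor
    · rintro h ⟨j, m⟩
      by_contra hcon
      exact h ⟨j, (subAt_iff_wrc hc hx (h1 j)).2 ⟨m, hcon⟩⟩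
    · rintro h ⟨j, hj⟩
      obtain ⟨m, hm⟩ := (subAt_iff_wrc hc hx (h1 j)).1 hj
      exact hm (h (j, m))

end

end Vale.Agent.P281.H364.TD
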