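import Vale.Agent.P281.H64.TD.SpecB
import Vale.Agent.P281.H364.TD.Rank
import Vale.Agent.P281.H364.TD.Fib

/-!
# P281, project T-Delta (helper364): blocks D8 (generic rank) and D8' (`FibInStmt`)
-/

open Set Filter Metric Vale.Agent.P281
open Vale.Agent.P281.H64 (Cm IsProperFibration)
open Vale.Agent.P281.H64.Gen (IsSmallSet)
open Vale.Agent.P281.H64.TU (Tame)
open Vale.Agent.P281.H64.TD
open Vale.Agent.P281.H713 (IsPeriodChange)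
open Vale.Agent.P281.H969.K (LocAnalytic)
open scoped Topology ContDiff Manifold

set_option linter.unusedSectionVars false

noncomputable section

namespace Vale.Agent.P281.H364.TD

/-- **D8'** -/
theorem fibIn : FibInStmt := by
  intro p d X Y _ _ _ _ _ _ _ _ _ _ f S D hd hf hp hS hD
  obtain ⟨hYc, hsurj⟩ := compactSpace_base hf hp hS
  have hYs : SecondCountableTopology Y := ChartedSpace.secondCountable_of_sigmaCompact (Cm p) Y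
  have hYp : PreconnectedSpace Y := by
    refine ⟨?_⟩
    rw [← hsurj.range_eq]
    exact isPreconnected_range hf.continuous
  obtain ⟨hdense, hpre⟩ := H383.Gen.compl p Y S hS
  have hne : ∃ x ∈ Dᶜ, f x ∉ S := by
    obtain ⟨x₀⟩ : Nonempty X := inferInstance
    obtain ⟨y, hy⟩ := (hdense.nonempty_iff.2 ⟨f x₀⟩)
    obtain ⟨x, hx⟩ := hsurj y
    obtain ⟨g, hg⟩ := hD.2.1 x
    have h1 := localEq_not_nhds hg
    rw [not_eventually] at h1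
    have h2 : ∀ᶠ z in 𝓝 x, f z ∉ S := by
      have : f x ∈ Sᶜ := by rw [hx]; exact hy
      exact hf.continuous.continuousAt.eventually (hS.1.isOpen_compl.mem_nhds this)
    obtain ⟨z, hz1, hz2⟩ := (h1.and_eventually h2).exists
    exact ⟨z, hz1, hz2⟩
  refine ⟨S ∪ {y | ∀ x, f x = y → x ∉ Dᶜ}, subset_union_left,
    small_over hf hp hS hpre (fun x _ => ?_) hne, fun y hy hsub => hy (Or.inr fun x hx hxD =>
      hxD (hsub hx))⟩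
  rw [compl_compl]
  obtain ⟨g, hg⟩ := hD.2.1 x
  exact localEq_locAnalytic hg

section
variable {p d n : ℕ} {X Y : Type} [TopologicalSpace X] [ChartedSpace (Cm (p + d)) X]
  [TopologicalSpace Y] [ChartedSpace (Cm p) Y]
  {V : Type} [NormedAddCommGroup V] [InnerProductSpace ℂ V] [FiniteDimensional ℂ V]

variable (p d) in
/-- The points where the rank on the fibre of one of the maps `w`, `L a x β w`, is at least `r`. -/
def RSet (f : X → Y) {ι : Type} (U : ι → Set Y) (𝒜 : Set (Set X))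
    (L : ι → X → (X → V) → (X → Cub V) → Prop) (r : ℕ) : Set X :=
  {x | (∀ D ∈ 𝒜, x ∉ D) ∧ ∃ a β w, f x ∈ U a ∧ L a x β w ∧ ∃ (q : Cm d → X) (v₀ : Cm d),
    ContMDiffAt 𝓘(ℂ, Cm d) 𝓘(ℂ, Cm (p + d)) ω q v₀ ∧ q v₀ = x ∧
    (∀ᶠ v in 𝓝 v₀, f (q v) = f x) ∧ ∃ l : Fin r → (Cub V →L[ℂ] ℂ),
      Function.Surjective fun (ξ : Cm d) (k : Fin r) => fderiv ℂ (fun v => l k (w (q v))) v₀ ξ}

variable {T : Tame (Cm d) X} {f : X → Y} {S : Set Y} {Q : (Fin n → ℝ) → (Fin n → ℝ) → ℝ}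
  {ι : Type} {U : ι → Set Y} {π : ι → Y → ((Fin n → ℝ) ≃L[ℝ] V)} {𝒜 : Set (Set X)}
  {L : ι → X → (X → V) → (X → Cub V) → Prop} {r : ℕ}

/-- The rank does not depend on the choice of `w`. -/
theorem rank_change (hT : IsTorD (Cm (p + d)) (Cm p) d T f S Q U π 𝒜 L) {x : X}
    (hxA : ∀ᶠ z in 𝓝 x, ∀ D ∈ 𝒜, z ∉ D) {a b : ι} (ha : f x ∈ U a) (hb : f x ∈ U b)
    {β β' : X → V} {w w' : X → Cub V} (hL : L a x β w) (hL' : L b x β' w') {q : Cm d → X}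
    {v₀ : Cm d} (hq : ContMDiffAt 𝓘(ℂ, Cm d) 𝓘(ℂ, Cm (p + d)) ω q v₀) (hqx : q v₀ = x)
    (hqf : ∀ᶠ v in 𝓝 v₀, f (q v) = f x)
    (h : ∃ l : Fin r → (Cub V →L[ℂ] ℂ), Function.Surjective fun (ξ : Cm d) (k : Fin r) =>
      fderiv ℂ (fun v => l k (w (q v))) v₀ ξ) :
    ∃ l : Fin r → (Cub V →L[ℂ] ℂ), Function.Surjective fun (ξ : Cm d) (k : Fin r) =>
      fderiv ℂ (fun v => l k (w' (q v))) v₀ ξ := by
  obtain ⟨l, hl⟩ := h
  obtain ⟨G, c, -, hG⟩ := hT.change a b x ha hb β w β' w' hL hL'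
  have hqc : Tendsto q (𝓝 v₀) (𝓝 x) := by
    have := hq.continuousAt.tendsto
    rwa [hqx] at this
  refine ⟨fun k => (l k).comp (ContinuousMultilinearMap.compContinuousLinearMapL
    fun _ => (G : V →L[ℂ] V)), fun η => ?_⟩
  obtain ⟨ξ, hξ⟩ := hl η
  refine ⟨ξ, ?_⟩
  rw [← hξ]
  funext k
  have h1 : (fun v => (l k) (w (q v))) =ᶠ[𝓝 v₀] fun v => ((l k).comp
      (ContinuousMultilinearMap.compContinuousLinearMapL fun _ => (G : V →L[ℂ] V)))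
        (w' (q v)) := by
    filter_upwards [hqc.eventually hG, hqc.eventually hxA, hqf] with v h2 h3 h4
    rw [(h2 h4).2 h3]
    rfl
  show fderiv ℂ _ v₀ ξ = fderiv ℂ _ v₀ ξ
  rw [h1.fderiv_eq]

theorem eventually_off (h𝒜 : 𝒜.Finite) (hP : ∀ D ∈ 𝒜, IsClosed D) {x : X}
    (hx : ∀ D ∈ 𝒜, x ∉ D) : ∀ᶠ z in 𝓝 x, ∀ D ∈ 𝒜, z ∉ D := by
  rw [Filter.eventually_all_finite h𝒜]
  exact fun D hD => (hP D hD).isOpen_compl.mem_nhds (hx D hD)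

/-- `RankD` in terms of `RSet`. -/
theorem rankD_iff (hT : IsTorD (Cm (p + d)) (Cm p) d T f S Q U π 𝒜 L) (h𝒜 : 𝒜.Finite)
    (hP : ∀ D ∈ 𝒜, IsClosed D) {y : Y} :
    RankD (Cm (p + d)) (d := d) f U 𝒜 L r y ↔ ∃ x ∈ RSet p d f U 𝒜 L r, f x = y := by
  constructor
  · rintro ⟨a, hya, q, v₀, hq, hqf, hqA, hl⟩
    have h1 : f (q v₀) = y := hqf.self_of_nhds
    obtain ⟨β, w, hL⟩ := hT.lift a (q v₀) (by rw [h1]; exact hya)
    refine ⟨q v₀, ⟨hqA, a, β, w, by rw [h1]; exact hya, hL, q, v₀, hq, rfl, ?_, hl β w hL⟩, h1⟩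
    rw [h1]
    exact hqf
  · rintro ⟨x, ⟨hxA, a, β, w, hxa, hL, q, v₀, hq, hqx, hqf, hl⟩, rfl⟩
    refine ⟨a, hxa, q, v₀, hq, hqf, by rw [hqx]; exact hxA, fun β' w' hL' => ?_⟩
    rw [hqx] at hL'
    exact rank_change hT (eventually_off h𝒜 hP hxA) hxa hxa hL hL' hq hqx hqf hl

variable [IsManifold 𝓘(ℂ, Cm (p + d)) ω X] [IsManifold 𝓘(ℂ, Cm p) ω Y]

theorem locAnalytic_rSet (hf : ContMDiff 𝓘(ℂ, Cm (p + d)) 𝓘(ℂ, Cm p) ω f)
    (hT : IsTorD (Cm (p + d)) (Cm p) d T f S Q U π 𝒜 L) (h𝒜 : 𝒜.Finite)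
    (hP : ∀ D ∈ 𝒜, J.IsPrime (Cm (p + d)) D) {x₀ : X} (hx₀ : f x₀ ∉ S)
    (hs : Function.Surjective (mfderiv 𝓘(ℂ, Cm (p + d)) 𝓘(ℂ, Cm p) f x₀)) :
    LocAnalytic (p := p + d) (RSet p d f U 𝒜 L r)ᶜ x₀ := by
  classical
  obtain ⟨a₀, ha₀⟩ := (hT.cover (f x₀)).1 hx₀
  obtain ⟨β₀, w₀, hL₀⟩ := hT.lift a₀ x₀ ha₀
  have he : ∀ D : Set X, ∃ e : X → ℂ, D ∈ 𝒜 → J.IsLocalEq (Cm (p + d)) D e x₀ := by
    intro D
    by_cases hD : D ∈ 𝒜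
    · obtain ⟨g, hg⟩ := (hP D hD).2.1 x₀
      exact ⟨g, fun _ => hg⟩
    · exact ⟨fun _ => 0, fun h => absurd h hD⟩
  choose e he using he
  obtain ⟨H, hH, hwH⟩ := hT.pole a₀ x₀ β₀ w₀ hL₀ h𝒜.toFinset e
    (fun D hD => h𝒜.mem_toFinset.2 hD) fun D hD => he D (h𝒜.mem_toFinset.1 hD)
  set h : X → ℂ := fun z => (∏ D ∈ h𝒜.toFinset, e D z) ^ 3 with hh
  -- the local equations near `x₀`
  have h1 : ∀ᶠ z in 𝓝 x₀, ∀ D ∈ 𝒜, J.HolAt (Cm (p + d)) (e D) z ∧ (z ∈ D ↔ e D z = 0) := by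
    rw [Filter.eventually_all_finite h𝒜]
    intro D hD
    obtain ⟨W, hW, hxW, h2, h3, -⟩ := he D hD
    filter_upwards [hW.mem_nhds hxW] with z hz using ⟨h2 z hz, h3 z hz⟩
  have h2 : ∀ᶠ z in 𝓝 x₀, ContMDiffAt 𝓘(ℂ, Cm (p + d)) 𝓘(ℂ, Cub V) ω H z :=
    (contMDiffAt_iff_contMDiffAt_nhds (by simp)).1 hH
  have h3 : ∀ᶠ z in 𝓝 x₀, f z ∈ U a₀ :=
    hf.continuous.continuousAt.eventually ((hT.isOpen a₀).mem_nhds ha₀)
  have h4 := hwH.eventually_nhds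
  have h5 := hT.near a₀ x₀ β₀ w₀ hL₀
  set N : Set X := {z | (∀ D ∈ 𝒜, J.HolAt (Cm (p + d)) (e D) z ∧ (z ∈ D ↔ e D z = 0)) ∧
    ContMDiffAt 𝓘(ℂ, Cm (p + d)) 𝓘(ℂ, Cub V) ω H z ∧ f z ∈ U a₀ ∧
    (∀ᶠ z' in 𝓝 z, (∀ D ∈ 𝒜, z' ∉ D) → h z' • w₀ z' = H z') ∧ L a₀ z β₀ w₀} with hN
  have hNx : N ∈ 𝓝 x₀ := by
    filter_upwards [h1, h2, h3, h4, h5] with z k1 k2 k3 k4 k5 using ⟨k1, k2, k3, k4, k5⟩
  have hhol : ∀ z ∈ N, J.HolAt (Cm (p + d)) h z := by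
    rintro z ⟨k1, -⟩
    have k2 : ContMDiffAt 𝓘(ℂ, Cm (p + d)) 𝓘(ℂ, ℂ) ω (fun z => ∏ D ∈ h𝒜.toFinset, e D z) z :=
      contMDiffAt_finsetProd fun D hD => (k1 D (h𝒜.mem_toFinset.1 hD)).1
    exact k2.pow 3
  have hzero : ∀ z ∈ N, h z ≠ 0 ↔ ∀ D ∈ 𝒜, z ∉ D := by
    rintro z ⟨k1, -⟩
    rw [hh]
    simp only [ne_eq, pow_eq_zero_iff (show (3 : ℕ) ≠ 0 by norm_num), Finset.prod_eq_zero_iff,
      not_exists, not_and, h𝒜.mem_toFinset]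
    exact forall₂_congr fun D hD => not_congr (k1 D hD).2.symm
  -- off the divisors, the quotients are the components of `w₀`
  have hquot : ∀ z ∈ N, (∀ D ∈ 𝒜, z ∉ D) → ∀ (l : Fin r → (Cub V →L[ℂ] ℂ)) (k : Fin r),
      ∀ᶠ z' in 𝓝 z, (l k) (H z') / h z' = l k (w₀ z') := by
    rintro z hzN hz l k
    have k1 := eventually_off h𝒜 (fun D hD => (hP D hD).1) hz
    have k2 : ∀ᶠ z' in 𝓝 z, h z' ≠ 0 :=
      (ContMDiffAt.continuousAt (hhol z hzN)).eventually_ne ((hzero z hzN).2 hz)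
    filter_upwards [k1, k2, hzN.2.2.2.1] with z' k3 k4 k5
    rw [← k5 k3, map_smul, smul_eq_mul, mul_div_cancel_left₀ _ k4]
  refine locAnalytic_sub (J := Fin r → (Cub V →L[ℂ] ℂ)) hf hs hNx
    (fun l => Fin.cons h fun k z => (l k) (H z)) ?_ ?_
  · intro x hx l k
    refine Fin.cases ?_ (fun k => ?_) k
    · exact hhol x hx
    · exact ContMDiffAt.comp (g := l k) (f := H) x (l k).contDiff.contMDiff.contMDiffAt hx.2.1
  · intro x hx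
    constructor
    · rintro ⟨hxA, b, β', w', hxb, hL', q, v₀, hq, hqx, hqf, hl⟩
      obtain ⟨l, hl⟩ := rank_change hT (eventually_off h𝒜 (fun D hD => (hP D hD).1) hxA) hxb
        hx.2.2.1 hL' hx.2.2.2.2 hq hqx hqf hl
      refine ⟨l, (hzero x hx).2 hxA, q, v₀, hq, hqx, hqf, ?_⟩
      intro η
      obtain ⟨ξ, hξ⟩ := hl η
      refine ⟨ξ, ?_⟩
      rw [← hξ]
      funext k
      have hqc : Tendsto q (𝓝 v₀) (𝓝 x) := by
        have := hq.continuousAt.tendsto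
        rwa [hqx] at this
      have k1 : (fun v => (l k) (H (q v)) / h (q v)) =ᶠ[𝓝 v₀] fun v => l k (w₀ (q v)) :=
        hqc.eventually (hquot x hx hxA l k)
      show fderiv ℂ (fun v => (l k) (H (q v)) / h (q v)) v₀ ξ =
        fderiv ℂ (fun v => l k (w₀ (q v))) v₀ ξ
      rw [k1.fderiv_eq]
    · rintro ⟨l, h0, q, v₀, hq, hqx, hqf, hl⟩
      have hxA := (hzero x hx).1 h0
      refine ⟨hxA, a₀, β₀, w₀, hx.2.2.1, hx.2.2.2.2, q, v₀, hq, hqx, hqf, l, ?_⟩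
      intro η
      obtain ⟨ξ, hξ⟩ := hl η
      refine ⟨ξ, ?_⟩
      rw [← hξ]
      funext k
      have hqc : Tendsto q (𝓝 v₀) (𝓝 x) := by
        have := hq.continuousAt.tendsto
        rwa [hqx] at this
      have k1 : (fun v => (l k) (H (q v)) / h (q v)) =ᶠ[𝓝 v₀] fun v => l k (w₀ (q v)) :=
        hqc.eventually (hquot x hx hxA l k)
      show fderiv ℂ (fun v => l k (w₀ (q v))) v₀ ξ =
        fderiv ℂ (fun v => (l k) (H (q v)) / h (q v)) v₀ ξ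
      rw [k1.fderiv_eq]

/-- There are points of rank at least `0` on every fibre over `Y ∖ S`. -/
theorem rankD_zero (hf : ContMDiff 𝓘(ℂ, Cm (p + d)) 𝓘(ℂ, Cm p) ω f)
    (hp : IsProperFibration (n := p + d) (p := p) f S)
    (hT : IsTorD (Cm (p + d)) (Cm p) d T f S Q U π 𝒜 L) (h𝒜 : 𝒜.Finite)
    (hP : ∀ D ∈ 𝒜, J.IsPrime (Cm (p + d)) D) (hn : ∀ D ∈ 𝒜, ∀ y ∉ S, ¬ f ⁻¹' {y} ⊆ D) {y : Y}
    (hy : y ∉ S) : RankD (Cm (p + d)) (d := d) f U 𝒜 L 0 y := by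
  rw [rankD_iff hT h𝒜 fun D hD => (hP D hD).1]
  obtain ⟨x₀, hx₀⟩ := (hp.connected y hy).nonempty
  obtain ⟨x, hx, hxA⟩ := (fibre_off h𝒜 (fun D hD => (hP D hD).1)
    (fun D hD => fibre_dense hf hp (hP D hD).2.1 hy (hn D hD y hy)) x₀ hx₀).exists
  have hxS : f x ∉ S := by rw [hx]; exact hy
  obtain ⟨a, ha⟩ := (hT.cover (f x)).1 hxS
  obtain ⟨β, w, hL⟩ := hT.lift a x ha
  obtain ⟨c, hxc, hc⟩ := H152.K.exists_prodChart (d := d) hf (chart_mem_atlas (Cm p) (f x))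
    (mem_chart_source _ _) (hp.submersive x hxS)
  refine ⟨x, ⟨hxA, a, β, w, ha, hL, fun v => c.symm ((c x).1, v), (c x).2, slice_hol hc hxc,
    c.left_inv hxc, slice_fib hc hxc, Fin.elim0, fun η => ⟨0, Subsingleton.elim _ _⟩⟩, hx⟩

/-- The rank is at most `d`. -/
theorem rankD_le {y : Y} (h : RankD (Cm (p + d)) (d := d) f U 𝒜 L r y)
    (hT : IsTorD (Cm (p + d)) (Cm p) d T f S Q U π 𝒜 L) : r ≤ d := by
  obtain ⟨a, hya, q, v₀, hq, hqf, hqA, hl⟩ := h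
  have h1 : f (q v₀) = y := hqf.self_of_nhds
  obtain ⟨β, w, hL⟩ := hT.lift a (q v₀) (by rw [h1]; exact hya)
  obtain ⟨l, hs⟩ := hl β w hL
  have h2 := LinearMap.finrank_le_finrank_of_surjective
    (f := (ContinuousLinearMap.pi fun k : Fin r =>
      fderiv ℂ (fun v => l k (w (q v))) v₀ : Cm d →L[ℂ] (Fin r → ℂ)).toLinearMap) hs
  simpa using h2

/-- **D8** -/
theorem gen_rank [T2Space X] [CompactSpace X] [T2Space Y]
    (hf : ContMDiff 𝓘(ℂ, Cm (p + d)) 𝓘(ℂ, Cm p) ω f) (hS : IsSmallSet (Cm p) S)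
    (hpre : IsPreconnected Sᶜ) (hne : Sᶜ.Nonempty)
    (hp : IsProperFibration (n := p + d) (p := p) f S)
    (hT : IsTorD (Cm (p + d)) (Cm p) d T f S Q U π 𝒜 L) (h𝒜 : 𝒜.Finite)
    (hP : ∀ D ∈ 𝒜, J.IsPrime (Cm (p + d)) D) (hn : ∀ D ∈ 𝒜, ∀ y ∉ S, ¬ f ⁻¹' {y} ⊆ D) :
    ∃ (r : ℕ) (S' : Set Y), S ⊆ S' ∧ IsSmallSet (Cm p) S' ∧
      (∀ y ∉ S', RankD (Cm (p + d)) (d := d) f U 𝒜 L r y) ∧
      ∀ y ∉ S, ¬ RankD (Cm (p + d)) (d := d) f U 𝒜 L (r + 1) y := by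
  classical
  obtain ⟨hYc, -⟩ := compactSpace_base hf hp hS
  have hYs : SecondCountableTopology Y := ChartedSpace.secondCountable_of_sigmaCompact (Cm p) Y
  obtain ⟨y₀, hy₀⟩ := hne
  have hPr : ∃ r, ∃ y ∉ S, RankD (Cm (p + d)) (d := d) f U 𝒜 L r y :=
    ⟨0, y₀, hy₀, rankD_zero hf hp hT h𝒜 hP hn hy₀⟩
  have hbd : ∀ r, (∃ y ∉ S, RankD (Cm (p + d)) (d := d) f U 𝒜 L r y) → r ≤ d := by
    rintro r ⟨y, -, h⟩
    exact rankD_le h hT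
  set r := Nat.findGreatest (fun r => ∃ y ∉ S, RankD (Cm (p + d)) (d := d) f U 𝒜 L r y) d with hr
  have h1 : ∃ y ∉ S, RankD (Cm (p + d)) (d := d) f U 𝒜 L r y := by
    obtain ⟨r', hr'⟩ := hPr
    exact Nat.findGreatest_spec (P := fun r => ∃ y ∉ S, RankD (Cm (p + d)) (d := d) f U 𝒜 L r y)
      (hbd r' hr') hr'
  have h2 : ∀ y ∉ S, ¬ RankD (Cm (p + d)) (d := d) f U 𝒜 L (r + 1) y := by
    intro y hy h
    have h3 : r + 1 ≤ r := Nat.le_findGreatest (hbd _ ⟨y, hy, h⟩) ⟨y, hy, h⟩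
    omega
  refine ⟨r, S ∪ {y | ∀ x, f x = y → x ∉ RSet p d f U 𝒜 L r}, subset_union_left,
    small_over hf hp hS hpre (fun x hx => locAnalytic_rSet hf hT h𝒜 hP hx
      (hp.submersive x hx)) ?_, fun y hy => ?_, h2⟩
  · obtain ⟨y, hy, h⟩ := h1
    obtain ⟨x, hx, hxy⟩ := (rankD_iff hT h𝒜 fun D hD => (hP D hD).1).1 h
    exact ⟨x, hx, by rw [hxy]; exact hy⟩
  · rw [mem_union, not_or] at hy
    have h3 := hy.2
    rw [mem_ofPred_eq] at h3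
    push Not at h3
    obtain ⟨x, hx, hxR⟩ := h3
    exact (rankD_iff hT h𝒜 fun D hD => (hP D hD).1).2 ⟨x, hxR, hx⟩

end

end Vale.Agent.P281.H364.TD
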